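import Vale.Agent.P224.SMH.B16
import Vale.Agent.P224.SH.Chk16
import Vale.Agent.P224.POS.EOk

/-!
The data of the static part in dimension 16.
-/

namespace Vale.Agent.P224.POS.M16

open Set Filter Function Vale.Agent.P224
open Vale.Agent.P224.SMH Vale.Agent.P224.SH
open Vale.Agent.P224.SM2 hiding ker

/-- the bounds of the coefficient functions -/
theorem bds {y Z e r : ℝ → ℝ} {lam : ℝ} (hc : Cert 16 y Z e r) (hl : CertLim 16 y Z e r lam)
    (h0 : y 0 = 15 / 14) {T : ℝ} (hT : T ∈ Ioo (0 : ℝ) 1) : SH.Bds BD16 T (y T) (e T) (r T) where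
  y := by
    have h := (yZ16 hc hl h0 hT).1
    simp only [BD16, pv]
    rw [h]
    unfold P16
    push_cast
    exact le_of_eq (by ring)
  el := by
    have h := B16.el hc hl h0 T hT
    have e1 : pv BD16.el T = BD16.N * (T * (1 - T) ^ (7 + 2) * SMH.pd 70000 B16.Lel T) := by
      simp only [SMH.pd, B16.Lel, BD16, pv]
      push_cast
      ring
    rw [e1]
    exact mul_le_mul_of_nonneg_left h (Nat.cast_nonneg _)
  eu := by
    have h := B16.eu hc hl h0 T hT
    have e1 : pv BD16.eu T = BD16.N * (T * (1 - T) ^ (7 + 2) * SMH.pd 70000 B16.Leu T) := by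
      simp only [SMH.pd, B16.Leu, BD16, pv]
      push_cast
      ring
    rw [e1]
    exact mul_le_mul_of_nonneg_left h (Nat.cast_nonneg _)
  rl := by
    have h := B16.rl hc hl h0 T hT
    have e1 : pv BD16.rl T = BD16.N * ((1 - T) ^ (7 + 2) * SMH.pd 70000 B16.Lrl T) := by
      simp only [SMH.pd, B16.Lrl, BD16, pv]
      push_cast
      ring
    rw [e1]
    exact mul_le_mul_of_nonneg_left h (Nat.cast_nonneg _)
  ru := by
    have h := B16.ru hc hl h0 T hT
    have e1 : pv BD16.ru T = BD16.N * ((1 - T) ^ (7 + 2) * SMH.pd 70000 B16.Lru T) := by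
      simp only [SMH.pd, B16.Lru, BD16, pv]
      push_cast
      ring
    rw [e1]
    exact mul_le_mul_of_nonneg_left h (Nat.cast_nonneg _)

/-- the data of the static part in dimension 16 -/
theorem eok : EOk (2 * 8) (evenRatio 8) (5019 / 10000) HD16 := by
  refine eok_of_all (by norm_num) (by norm_num) fun y Z e r lam hc hl hy _ _ => ?_
  have h0 : y 0 = 15 / 14 := by
    rw [hy]
    norm_num
  refine ⟨?_, fun T hT k hk => le_FKK okK16 hT (bds hc hl h0 hT) hk⟩
  have h1 := B16.r_zero hc hl h0
  push_cast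
  linarith

end Vale.Agent.P224.POS.M16
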