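import Vale.Agent.P224.POS.Psd

/-!
Certificate data: Gram matrices 4,5,6 and their positive semidefiniteness.
-/

namespace Vale.Agent.P224.POS.M16

open Vale.Agent.P224.POS

noncomputable section

/-- Gram matrix of block 4 ((u1-E)*sca00), rows of the lower triangle -/
def G4 : List (List Int) := rowsZ 18014398509481984 [
  9018473923140992,
  181977868141433171638709222629120,
  4901418071682006847722472026203252289832122915072,
  70338577113786830896213016816647744725042431269748296653135203840,
  1258595522071620296154572952987209378332076238702441081888218201242371841900759552] 0

/-- witness of block 4 -/
def W4 : List (List Nat) := rowsN 134217728 [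
  70457327,
  13437278367877842,
  1990109727208177566945066,
  165544509134206926047255664963757,
  22109864602830022869184870170555399074633] 0

set_option maxRecDepth 100000 in
theorem psd4 : psdChk 67108864 1 10411006527 W4 G4 = true := by decide +kernel

/-- Gram matrix of block 5 ((u1-E)*sca10), rows of the lower triangle -/
def G5 : List (List Int) := rowsZ 4398046511104 [
  3808986455552] 0

/-- witness of block 5 -/
def W5 : List (List Nat) := rowsN 2097152 [
  1851063] 0

set_option maxRecDepth 100000 in
theorem psd5 : psdChk 1048576 1 482988959999 W5 G5 = true := by decide +kernel

/-- Gram matrix of block 6 ((u1-E)*sca11), rows of the lower triangle -/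
def G6 : List (List Int) := rowsZ 36028797018963968 [
  18015124561081984,
  742390943240940053073711058634496,
  42496380568372760462372131187645432099139071322112,
  863104455949537579524009590529409200006088024596480783303559142400] 0

/-- witness of block 6 -/
def W6 : List (List Nat) := rowsN 268435456 [
  135032336,
  39462082926594402,
  14968750805730189742124849,
  2600545544157634318726677543354592] 0

set_option maxRecDepth 100000 in
theorem psd6 : psdChk 134217728 1 12493233613 W6 G6 = true := by decide +kernel

end

end Vale.Agent.P224.POS.M16
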