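import Vale.Agent.P224.POS.Sub
import Vale.Agent.P224.POS.M16.Rows
import Vale.Agent.P224.POS.M16.El
import Vale.Agent.P224.POS.M16.DG0
import Vale.Agent.P224.POS.M16.DG1
import Vale.Agent.P224.POS.M16.DG2
import Vale.Agent.P224.POS.M16.DG3
import Vale.Agent.P224.POS.M16.DG4

/-!
The identity of the certificate in dimension 16 and the positivity of its left side.
-/

namespace Vale.Agent.P224.POS.M16

open Vale.Agent.P224.UE
open scoped RealInnerProductSpace

noncomputable section

/-- the vector blocks -/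
def BV : List Blk := [⟨els0, G0⟩, ⟨els1, G1⟩, ⟨els2, G2⟩, ⟨els3, G3⟩]

/-- the scalar blocks -/
def BS : List Blk := [⟨els4, G4⟩, ⟨els5, G5⟩, ⟨els6, G6⟩]

/-- the integers replacing `w, T, b, g` (not powers of two: the kernel hashes a numeral by its last
64 bits) -/
def Ms : List Nat := [
  Nat.add (Nat.pow 2 87) 1281953581237109591,
  Nat.add (Nat.pow 2 1016) 857011777145507817,
  Nat.add (Nat.pow 2 4649) 722607062903607477,
  Nat.add (Nat.pow 2 19268) 213497453961388347]

set_option maxRecDepth 100000 in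
/-- **The identity**, checked by the kernel. -/
theorem idM : chk Ms (PE.sub (PE.sb sbF P) (PE.mul (PE.c 2) (rhsPE BV BS))) = true := by
  decide +kernel

set_option maxRecDepth 100000 in
lemma tri0 : tri G0 0 = true := by decide +kernel

set_option maxRecDepth 100000 in
lemma tri1 : tri G1 0 = true := by decide +kernel

set_option maxRecDepth 100000 in
lemma tri2 : tri G2 0 = true := by decide +kernel

set_option maxRecDepth 100000 in
lemma tri3 : tri G3 0 = true := by decide +kernel

set_option maxRecDepth 100000 in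
lemma tri4 : tri G4 0 = true := by decide +kernel

set_option maxRecDepth 100000 in
lemma tri5 : tri G5 0 = true := by decide +kernel

set_option maxRecDepth 100000 in
lemma tri6 : tri G6 0 = true := by decide +kernel

lemma hV : ∀ B ∈ BV, tri B.G 0 = true ∧ QPos B.G := by
  intro B hB
  unfold BV at hB
  rcases List.mem_cons.1 hB with rfl | hB
  · exact ⟨tri0, fun x => qpos_of_chk psd0 x⟩
  rcases List.mem_cons.1 hB with rfl | hB
  · exact ⟨tri1, fun x => qpos_of_chk psd1 x⟩
  rcases List.mem_cons.1 hB with rfl | hB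
  · exact ⟨tri2, fun x => qpos_of_chk psd2 x⟩
  rcases List.mem_cons.1 hB with rfl | hB
  · exact ⟨tri3, fun x => qpos_of_chk psd3 x⟩
  · exact absurd hB List.not_mem_nil

lemma hS : ∀ B ∈ BS, tri B.G 0 = true ∧ QPos B.G := by
  intro B hB
  unfold BS at hB
  rcases List.mem_cons.1 hB with rfl | hB
  · exact ⟨tri4, fun x => qpos_of_chk psd4 x⟩
  rcases List.mem_cons.1 hB with rfl | hB
  · exact ⟨tri5, fun x => qpos_of_chk psd5 x⟩
  rcases List.mem_cons.1 hB with rfl | hB
  · exact ⟨tri6, fun x => qpos_of_chk psd6 x⟩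
  · exact absurd hB List.not_mem_nil

/-- **Positivity** of the left side on pair data with a vector of length at most `5 / 6`. -/
theorem pos {E : Type*} [NormedAddCommGroup E] [InnerProductSpace ℝ E] {e x N y w : E}
    (he : ‖e‖ ^ 2 ≤ 25 / 36) (hx : ‖x‖ = 1) (hN : ‖N‖ = 1) (hy : ‖y‖ = 1) (hw : ‖w‖ = 1)
    (hxN : ⟪x, N⟫ = 0) (hyw : ⟪y, w⟫ = 0) : 0 ≤ PE.ev (cd (dv x N y w e)) P :=
  nonneg_of_chk 2 (by norm_num) idM hV hS he hx hN hy hw hxN hyw

end

end Vale.Agent.P224.POS.M16
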