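import Vale.Agent.P224.POS.M16.Rows
import Vale.Agent.P224.POS.LawNumM
import Mathlib.Analysis.Real.Pi.Bounds

/-!
The numerical law of the certificate in dimension 16.
-/

namespace Vale.Agent.P224.POS.M16

open Vale.Agent.P224.UE

/-- **The numerical law.** -/
theorem hneg {γ : ℝ} (hγ : γ ≤ 5019 / 10000) : ∀ Θ u r : ℝ, 6 / 5 ≤ Θ → Θ < 1287 / 896 → 0 ≤ u →
    Θ ^ 2 * u ≤ 1 → u ^ 2 ≤ r → r ≤ u →
      Θ * (1 + γ * u + (0 + (0 + (-(46861082209 / 17179869184)) + (17449539639 / 8589934592)) * u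
        + ((-(1308644439 / 1073741824)) + (7436238291 / 17179869184)) * r
        + ((1828036035 / 17179869184) + 0) * u ^ 2
        + 0 * ((u - r) / (2 * ((8 : ℕ) : ℝ) + 1))))
        + (gam 8 8)⁻¹ * rvalM (2 * 8) (rl 20615843020800000 rows) u r < 1287 / 896 := by
  intro Θ u r h1 h2 hu hT hr1 hr2
  have hg : (gam 8 8)⁻¹ = 6435 / 16 := by norm_num [gam]
  have hr : rvalM (2 * 8) (rl 20615843020800000 rows) u r = 138421841 / 292057776128 * u + 204942173 / 73014444032 * r := rval_eq u r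
  rw [hg, hr]
  refine law_negM_S (Cl := 1287 / 896) (Cu := 1287 / 896) (γu := 5019 / 10000)
    (φ1 := 6435 / 16 * (138421841 / 292057776128)) (φ2 := 6435 / 16 * (204942173 / 73014444032))
    (by linarith) (by linarith) hγ (by norm_num) (by norm_num) (by norm_num) ?_ ?_
    h1 h2 hu hT hr1 hr2 (by ring)
  · intro T hT1 hT2
    exact quintic_neg (by norm_num) (by norm_num) (by norm_num) (by norm_num) (by norm_num)
      (by norm_num) (by norm_num) (le_of_eq rfl) (le_of_eq rfl) (le_of_eq rfl) (le_of_eq rfl)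
      (le_of_eq rfl) (le_of_eq rfl) hT1 hT2
  · intro T hT1 hT2
    exact quintic_neg (by norm_num) (by norm_num) (by norm_num) (by norm_num) (by norm_num)
      (by norm_num) (by norm_num) (le_of_eq rfl) (le_of_eq rfl) (le_of_eq rfl) (le_of_eq rfl)
      (le_of_eq rfl) (le_of_eq rfl) hT1 hT2

end Vale.Agent.P224.POS.M16
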